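import Vale.Agent.P156.H156.F4Final
import Vale.Agent.P156.H167.SpecXMain

/-! P156, block F complete: `SpecOInv` implies `SpecS`. -/

namespace Vale.Agent.P156.H156

theorem specX_of_H167 {d : ℕ} (h : H167.SpecX d) : SpecX d :=
  fun 𝒰 E E₀ good K hK μ _ hμ => h 𝒰 E E₀ good K hK μ hμ

/-- **Block F**: the asymptotic orthogonal invariance of the scattering matrices of the leads
implies the convergence of the Cayley transform of the Green function at the centres to the
circular orthogonal ensemble. -/
theorem specS_of_specOInv {d : ℕ} (hd : 3 ≤ d) (hO : SpecOInv d) : SpecS d :=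
  specS_of_specX' hd (specX_of_H167 (H167.specX hO (B.specZW d)))

end Vale.Agent.P156.H156
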