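import Vale.Agent.P156.H156.Reind
import Vale.Agent.P156.H490.Schur

/-! P156, block F4: the Cayley transform of the Green function at the centres is a compression of
the scattering matrix of the leads. -/

open Matrix MeasureTheory Filter Topology
open scoped ComplexConjugate Kronecker

namespace Vale.Agent.P156.H156

open Vale.Agent.P156

noncomputable section

variable {n q K : ℕ}

/-- the channels: the first channel of every star, and the others -/
def chE (K q : ℕ) : Fin K ⊕ (Fin K × Fin q) ≃ Fin K × Fin (q + 1) where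
  toFun := Sum.elim (fun i => (i, 0)) (fun p => (p.1, p.2.succ))
  invFun p := Fin.cases (motive := fun _ => Fin K ⊕ (Fin K × Fin q)) (Sum.inl p.1)
    (fun l => Sum.inr (p.1, l)) p.2
  left_inv := by
    rintro (i | p)
    · rfl
    · rfl
  right_inv := by
    rintro ⟨i, l⟩
    refine Fin.cases ?_ (fun j => ?_) l
    · rfl
    · rfl

theorem chE_inl (i : Fin K) : chE K q (Sum.inl i) = (i, 0) := rfl

/-- the orthogonal change of channels -/
def bigO (K : ℕ) (Q : Matrix (Fin (q + 1)) (Fin (q + 1)) ℝ) :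
    Matrix (Fin K × Fin (q + 1)) (Fin K × Fin (q + 1)) ℂ :=
  (1 : Matrix (Fin K) (Fin K) ℂ) ⊗ₖ A.toC Q

theorem bigO_mem {Q : Matrix (Fin (q + 1)) (Fin (q + 1)) ℝ}
    (hQ : Q ∈ orthogonalGroup (Fin (q + 1)) ℝ) :
    bigO K Q ∈ unitaryGroup (Fin K × Fin (q + 1)) ℂ :=
  kronecker_mem_unitary (one_mem _) (A.toC_mem_unitary hQ)

theorem bigO_real (Q : Matrix (Fin (q + 1)) (Fin (q + 1)) ℝ) :
    (bigO K Q)ᴴ = (bigO K Q)ᵀ := by
  ext a b
  rw [conjTranspose_apply, transpose_apply, bigO, kroneckerMap_apply, one_apply, A.toC_apply]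
  split_ifs <;> simp

/-- the compressed lead matrix -/
def compT (R : Matrix (Fin K × Fin (q + 1)) (Fin K × Fin (q + 1)) ℂ) : Matrix (Fin K) (Fin K) ℂ :=
  fun i j => ((q : ℂ) + 1)⁻¹ * ∑ k, ∑ l, R (i, k) (j, l)

theorem bigO_conj_apply {Q : Matrix (Fin (q + 1)) (Fin (q + 1)) ℝ}
    (hQ : ∀ k, Q 0 k = (Real.sqrt ((q : ℝ) + 1))⁻¹)
    (R : Matrix (Fin K × Fin (q + 1)) (Fin K × Fin (q + 1)) ℂ) :
    ((bigO K Q * R * (bigO K Q)ᴴ).submatrix (chE K q) (chE K q)).toBlocks₁₁ = compT R := by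
  have hs : (((Real.sqrt ((q : ℝ) + 1))⁻¹ : ℝ) : ℂ) * (((Real.sqrt ((q : ℝ) + 1))⁻¹ : ℝ) : ℂ) =
      ((q : ℂ) + 1)⁻¹ := by
    rw [← Complex.ofReal_mul, ← mul_inv, Real.mul_self_sqrt (by positivity)]
    push_cast
    rfl
  have hrow : ∀ (i : Fin K) (p : Fin K × Fin (q + 1)), bigO K Q (i, 0) p =
      if i = p.1 then (((Real.sqrt ((q : ℝ) + 1))⁻¹ : ℝ) : ℂ) else 0 := by
    intro i p
    obtain ⟨a, b⟩ := p
    rw [bigO, kroneckerMap_apply, one_apply, A.toC_apply, hQ]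
    split_ifs <;> simp
  ext i j
  set s : ℂ := (((Real.sqrt ((q : ℝ) + 1))⁻¹ : ℝ) : ℂ) with hsdef
  have hinner : ∀ x : Fin K × Fin (q + 1), (bigO K Q * R) (i, 0) x = ∑ k, s * R (i, k) x := by
    intro x
    rw [mul_apply, Fintype.sum_prod_type]
    simp only [hrow, ite_mul, zero_mul]
    rw [Finset.sum_eq_single i]
    · simp
    · intro b _ hb
      exact Finset.sum_eq_zero fun l _ => if_neg fun h => hb h.symm
    · simp
  have houter : (bigO K Q * R * (bigO K Q)ᵀ) (i, 0) (j, 0) =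
      ∑ l, (bigO K Q * R) (i, 0) (j, l) * s := by
    rw [mul_apply, Fintype.sum_prod_type]
    simp only [transpose_apply, hrow, mul_ite, mul_zero]
    rw [Finset.sum_eq_single j]
    · simp
    · intro b _ hb
      exact Finset.sum_eq_zero fun l _ => if_neg fun h => hb h.symm
    · simp
  rw [toBlocks₁₁, of_apply, submatrix_apply, chE_inl, chE_inl, bigO_real, houter]
  simp only [hinner]
  rw [compT, Finset.sum_comm, Finset.mul_sum]
  refine Finset.sum_congr rfl fun l _ => ?_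
  rw [Finset.sum_mul, Finset.mul_sum]
  refine Finset.sum_congr rfl fun k _ => ?_
  rw [← hs]
  ring

section identity

variable {E : ℝ}

theorem leadS_eq {ω : SimpleGraph (Fin n) × StarPos n (q + 1) K}
    (hω : ω ∈ ZZs n (q + 1) K) (h0 : IsUnit (cutMat (adj ω.1) ∅ (E : ℂ)).det)
    (hD : IsUnit (cutMat (adj ω.1) (centres ω) (E : ℂ)).det) :
    IsUnit ((E : ℂ) • (1 : Matrix (Fin K) (Fin K) ℂ) +
      (((q : ℝ) + 1 : ℝ) : ℂ) • compT (leadMat ω (E : ℂ))).det ∧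
    centreMat ω (E : ℂ) = -((E : ℂ) • (1 : Matrix (Fin K) (Fin K) ℂ) +
      (((q : ℝ) + 1 : ℝ) : ℂ) • compT (leadMat ω (E : ℂ)))⁻¹ := by
  set N : Matrix (Fin K) (Fin K) ℂ := (E : ℂ) • (1 : Matrix (Fin K) (Fin K) ℂ) +
      (((q : ℝ) + 1 : ℝ) : ℂ) • compT (leadMat ω (E : ℂ)) with hN
  have hu := H490.isUnit_centreMat hω h0 hD
  have hq1 : ((q : ℂ) + 1) ≠ 0 := by
    have : ((q : ℝ) + 1) ≠ 0 := by positivity
    exact_mod_cast this
  have hinv : (centreMat ω (E : ℂ))⁻¹ = -N := by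
    ext i j
    rw [H490.centreMat_inv hω h0 hD, Matrix.neg_apply, hN, Matrix.add_apply, Matrix.smul_apply,
      Matrix.smul_apply, one_apply, smul_eq_mul, smul_eq_mul, compT]
    push_cast
    rw [mul_inv_cancel_left₀ hq1]
    congr 2
    split_ifs <;> simp
  have hNu : IsUnit N.det := by
    have h1 : IsUnit ((centreMat ω (E : ℂ))⁻¹).det := isUnit_nonsing_inv_det _ hu
    rw [hinv, det_neg] at h1
    exact isUnit_of_mul_isUnit_right h1
  refine ⟨hNu, ?_⟩
  have h2 : centreMat ω (E : ℂ) = ((centreMat ω (E : ℂ))⁻¹)⁻¹ := (nonsing_inv_nonsing_inv _ hu).symm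
  rw [h2, hinv]
  apply inv_eq_left_inv
  rw [neg_mul_neg, nonsing_inv_mul _ hNu]

/-- the denominator of the phase -/
def zE (q : ℕ) (E : ℝ) : ℂ := (E : ℂ) + (((q : ℝ) + 1 : ℝ) : ℂ) * mE (q + 1) E

open Classical in
/-- the phase of the Green function at the centres -/
def kap (q : ℕ) (E : ℝ) : Circle :=
  if h : zE q E ≠ 0 then Circle.ofConjDivSelf (zE q E) h else 1

theorem zE_ne (hq : 2 ≤ q + 1) (hE : |E| < 2 * Real.sqrt (((q + 1 : ℕ) : ℝ) - 1)) :
    zE q E ≠ 0 :=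
  A.add_mul_ne (A.mE_im_pos hq hE).ne' (by positivity)

theorem coe_kap (hq : 2 ≤ q + 1) (hE : |E| < 2 * Real.sqrt (((q + 1 : ℕ) : ℝ) - 1)) :
    (kap q E : ℂ) = ((E : ℂ) + (((q : ℝ) + 1 : ℝ) : ℂ) * conj (mE (q + 1) E)) /
      ((E : ℂ) + (((q : ℝ) + 1 : ℝ) : ℂ) * mE (q + 1) E) := by
  rw [kap, dif_pos (zE_ne hq hE), Circle.ofConjDivSelf_coe]
  congr 1
  simp [zE]

theorem compT_herm {R : Matrix (Fin K × Fin (q + 1)) (Fin K × Fin (q + 1)) ℂ} (hR : Rᴴ = R) :
    (compT R)ᴴ = compT R := by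
  have h : ∀ a b, conj (R b a) = R a b := fun a b => congrFun (congrFun hR a) b
  ext i j
  rw [conjTranspose_apply, compT, compT, Complex.star_def]
  simp only [map_mul, map_sum, map_inv₀, map_add, map_natCast, map_one, h]
  rw [Finset.sum_comm]

theorem mdE_eq : mdE (q + 1) E = -1 / ((E : ℂ) + (((q : ℝ) + 1 : ℝ) : ℂ) * mE (q + 1) E) := by
  unfold mdE
  push_cast
  rfl

/-- **finite size identity** on the good set. -/
theorem cay_centreMat (hq : 2 ≤ q + 1) (hE : |E| < 2 * Real.sqrt (((q + 1 : ℕ) : ℝ) - 1))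
    {Q : Matrix (Fin (q + 1)) (Fin (q + 1)) ℝ} (hQo : Q ∈ orthogonalGroup (Fin (q + 1)) ℝ)
    (hQ : ∀ k, Q 0 k = (Real.sqrt ((q : ℝ) + 1))⁻¹)
    {ω : SimpleGraph (Fin n) × StarPos n (q + 1) K}
    (hω : ω ∈ ZZs n (q + 1) K) (h0 : IsUnit (cutMat (adj ω.1) ∅ (E : ℂ)).det)
    (hD : IsUnit (cutMat (adj ω.1) (centres ω) (E : ℂ)).det) :
    H167.toSU (cay (mdE (q + 1) E) (centreMat ω (E : ℂ))) =
      scal (kap q E) (H167.closeS (oneS (Fin K × Fin q)) (reind (chE K q)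
        ((⟨bigO K Q, bigO_mem hQo⟩ : unitaryGroup (Fin K × Fin (q + 1)) ℂ) •
          H167.toSU (SX E ω)))) := by
  set m := mE (q + 1) E with hm
  have hmi : m.im ≠ 0 := (A.mE_im_pos hq hE).ne'
  set R := leadMat ω (E : ℂ) with hRdef
  have hR : A.RealSymm R := A.leadMat_realSymm ω E
  obtain ⟨hNu, hc⟩ := leadS_eq hω h0 hD
  have hd0 : ((q : ℝ) + 1) ≠ 0 := by positivity
  -- the rotated matrix
  have hRo : (bigO K Q * R * (bigO K Q)ᴴ)ᴴ = bigO K Q * R * (bigO K Q)ᴴ := by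
    rw [conjTranspose_mul, conjTranspose_mul, conjTranspose_conjTranspose, hR.1, Matrix.mul_assoc]
  set M := (bigO K Q * R * (bigO K Q)ᴴ).submatrix (chE K q) (chE K q) with hM
  have hMH : Mᴴ = M := by
    rw [hM, conjTranspose_submatrix, hRo]
  have hcayM : cay m M = (bigO K Q * cay m R * (bigO K Q)ᴴ).submatrix (chE K q) (chE K q) := by
    rw [hM, A.cay_submatrix, A.cay_conj hR.1 hmi (bigO_mem hQo)]
  have hXmem : SX E ω ∈ F.symU (Fin K × Fin (q + 1)) := H167.cay_mem_symU hmi hR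
  have hX : (H167.toSU (SX E ω)).1 = cay m R := H167.coe_toSU hXmem
  set Y : F.SymU (Fin K ⊕ (Fin K × Fin q)) := reind (chE K q)
        ((⟨bigO K Q, bigO_mem hQo⟩ : unitaryGroup (Fin K × Fin (q + 1)) ℂ) •
          H167.toSU (SX E ω)) with hY
  have hYv : Y.1 = cay m M := by
    rw [hcayM, bigO_real]
    change (bigO K Q * (H167.toSU (SX E ω)).1 * (bigO K Q)ᵀ).submatrix (chE K q) (chE K q) = _
    rw [hX]
  have hU : IsUnit ((oneS (Fin K × Fin q)).1 - Y.1.toBlocks₂₂).det := by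
    rw [hYv]
    exact A.isUnit_one_sub_block hMH hmi
  have hmem : cay (mdE (q + 1) E) (centreMat ω (E : ℂ)) ∈ F.symU (Fin K) := by
    refine H167.cay_mem_symU ?_ (A.centreMat_realSymm ω E)
    rw [mdE_eq]
    exact A.im_md_ne hmi hd0
  apply Subtype.ext
  rw [H167.coe_toSU hmem]
  change _ = (kap q E : ℂ) • (H167.closeS (oneS (Fin K × Fin q)) Y).1
  rw [H167.coe_closeS hU, hYv, coe_kap hq hE, mdE_eq, hc, A.cay_centre hmi hd0 (compT_herm hR.1) hNu]
  congr 1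
  change cay m (compT R) = A.closeM (cay m M) 1
  rw [← A.cay_compress hMH hmi, hM, bigO_conj_apply hQ]

end identity

end

end Vale.Agent.P156.H156
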