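import Vale.Agent.P156.H156.Centre
import Vale.Agent.P156.H167.Weak
import Vale.Agent.P156.H917.Edge3
import Vale.Agent.P156.G.Coe

/-! P156, block F4: the full unitary invariance of the limit laws of the scattering matrices of the
leads (`SpecX`) implies `SpecS`. -/

open Matrix MeasureTheory Filter Topology
open scoped ComplexConjugate Kronecker

namespace Vale.Agent.P156.H156

open Vale.Agent.P156

noncomputable section

/-- (SpecX): every limit law of the scattering matrix of `K ≥ 2` stars is invariant under the full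
unitary group. -/
def SpecX (d : ℕ) : Prop :=
  ∀ (𝒰 : Ultrafilter ℕ) (E : ℕ → ℝ) (E₀ : ℝ), GoodSeq d 𝒰 E E₀ → ∀ K : ℕ, 2 ≤ K →
  ∀ μ : Measure (F.SymU (Fin K × Fin d)), IsProbabilityMeasure μ →
  Lim.IsLimitLaw (𝒰 : Filter ℕ) (fun n => WW n d K) (fun n ω => H167.toSU (SX (E n) ω)) μ →
  ∀ U : unitaryGroup (Fin K × Fin d) ℂ, F.InvBy μ U

/-- (S0): the sample spaces are not empty. -/
def SpecNE (d : ℕ) : Prop :=
  ∀ (𝒰 : Ultrafilter ℕ) (E : ℕ → ℝ) (E₀ : ℝ), GoodSeq d 𝒰 E E₀ → ∀ K : ℕ,
    ∀ᶠ n in (𝒰 : Filter ℕ), (WW n d K).Nonempty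

variable {q K : ℕ} {𝒰 : Ultrafilter ℕ} {E : ℕ → ℝ} {E₀ : ℝ}

theorem eventually_bulk {d : ℕ} (good : GoodSeq d 𝒰 E E₀) :
    ∀ᶠ n in (𝒰 : Filter ℕ), |E n| < 2 * Real.sqrt ((d : ℝ) - 1) :=
  good.lim.abs.eventually_lt_const good.bulk

theorem tendsto_kap (good : GoodSeq (q + 1) 𝒰 E E₀) :
    Tendsto (fun n => kap q (E n)) 𝒰 (𝓝 (kap q E₀)) := by
  have hq : 2 ≤ q + 1 := by have := good.three; omega
  have hind : Topology.IsInducing (fun z : Circle => (z : ℂ)) := ⟨rfl⟩
  rw [hind.tendsto_nhds_iff]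
  have hz0 := zE_ne hq good.bulk
  have hmc : Tendsto (fun n => mE (q + 1) (E n)) 𝒰 (𝓝 (mE (q + 1) E₀)) :=
    ((H917.continuous_mE q).tendsto E₀).comp good.lim
  have hEc : Tendsto (fun n => (E n : ℂ)) 𝒰 (𝓝 (E₀ : ℂ)) :=
    (Complex.continuous_ofReal.tendsto E₀).comp good.lim
  have hcc : Tendsto (fun n => conj (mE (q + 1) (E n))) 𝒰 (𝓝 (conj (mE (q + 1) E₀))) :=
    (Complex.continuous_conj.tendsto _).comp hmc
  have h1 := (hEc.add (hcc.const_mul ((((q : ℝ) + 1 : ℝ) : ℂ)))).div
    (hEc.add (hmc.const_mul ((((q : ℝ) + 1 : ℝ) : ℂ)))) hz0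
  rw [coe_kap hq good.bulk]
  refine h1.congr' ?_
  filter_upwards [eventually_bulk good] with n hn
  exact (coe_kap hq hn).symm

theorem tendsto_notMem {d : ℕ} (hZW : SpecZW d) (good : GoodSeq d 𝒰 E E₀) (K : ℕ) :
    Tendsto (fun n => prob (WW n d K) (fun ω => ω ∉ ZZs n d K)) 𝒰 (𝓝 0) := by
  obtain ⟨C, hC⟩ := hZW K
  have h1 : Tendsto (fun n : ℕ => C / n) 𝒰 (𝓝 0) :=
    (tendsto_const_div_atTop_nhds_zero_nat C).mono_left good.atTop
  refine squeeze_zero' (Filter.Eventually.of_forall fun n => H167.prob_nonneg _ _) ?_ h1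
  filter_upwards [good.even] with n hn
  exact hC n hn.1 hn.2

theorem exists_centre_law (hZW : SpecZW (q + 1)) (hX : SpecX (q + 1)) (hne : SpecNE (q + 1))
    (good : GoodSeq (q + 1) 𝒰 E E₀) (hK : 2 ≤ K) :
    ∃ ν : Measure (F.SymU (Fin K)), IsProbabilityMeasure ν ∧ UInv ν ∧
      Lim.IsLimitLaw (𝒰 : Filter ℕ) (fun n => WW n (q + 1) K)
        (fun n ω => H167.toSU (cay (mdE (q + 1) (E n)) (centreMat ω (E n : ℂ)))) ν := by
  classical
  have : Nonempty (Fin K) := ⟨⟨0, by omega⟩⟩
  have hq2 : 2 ≤ q + 1 := by have := good.three; omega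
  have hq : 0 < q := by omega
  obtain ⟨μ, hμp, hμ⟩ := Lim.exists_isLimitLaw 𝒰 (fun n => WW n (q + 1) K)
    (fun n ω => H167.toSU (SX (E n) ω)) (hne 𝒰 E E₀ good K)
  have hinv : UInv μ := hX 𝒰 E E₀ good K hK μ hμp hμ
  obtain ⟨Q, hQo, hQ⟩ := exists_orth q hq
  set O : unitaryGroup (Fin K × Fin (q + 1)) ℂ := ⟨bigO K Q, bigO_mem hQo⟩ with hO
  set rot : F.SymU (Fin K × Fin (q + 1)) → F.SymU (Fin K ⊕ (Fin K × Fin q)) :=
    fun S => reind (chE K q) (O • S) with hrot
  have hrotc : Continuous rot := (continuous_reind _).comp (continuous_const_smul O)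
  have hinv1 : UInv (μ.map rot) := by
    have h1 : μ.map rot = (μ.map (fun S => O • S)).map (reind (chE K q)) := by
      rw [Measure.map_map (continuous_reind _).measurable (F.measurable_smul O)]
      rfl
    rw [h1]
    exact (hinv.smul O).reind _
  have : IsProbabilityMeasure (μ.map rot) :=
    Measure.isProbabilityMeasure_map hrotc.measurable.aemeasurable
  set C := oneS (Fin K × Fin q) with hC
  have hnull : (μ.map rot) (H167.goodS (κ := Fin K) C)ᶜ = 0 :=
    H167.measure_goodS_compl hinv1.dInv C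
  have hgoodm : MeasurableSet ((H167.goodS (κ := Fin K) C)ᶜ) :=
    (H167.isOpen_goodS C).measurableSet.compl
  set κ₀ := kap q E₀ with hκ₀
  have hmeas : Measurable (fun x => scal κ₀ (H167.closeS C (rot x))) :=
    (continuous_scal' κ₀).measurable.comp ((H167.measurable_closeS C).comp hrotc.measurable)
  refine ⟨μ.map (fun x => scal κ₀ (H167.closeS C (rot x))),
    Measure.isProbabilityMeasure_map hmeas.aemeasurable, ?_, ?_⟩
  · have h1 : μ.map (fun x => scal κ₀ (H167.closeS C (rot x))) =
        ((μ.map rot).map (H167.closeS C)).map (scal κ₀) := by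
      rw [Measure.map_map (H167.measurable_closeS C) hrotc.measurable,
        Measure.map_map (continuous_scal' κ₀).measurable
          ((H167.measurable_closeS C).comp hrotc.measurable)]
      rfl
    rw [h1]
    exact (hinv1.closeS C).scal κ₀
  · intro G
    rw [integral_map hmeas.aemeasurable G.continuous.measurable.aestronglyMeasurable]
    refine H167.transfer (A := F.SymU (Fin K × Fin (q + 1))) (B := F.SymU (Fin K)) (Θ := Circle)
      (fun n => WW n (q + 1) K) (fun n ω => H167.toSU (SX (E n) ω))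
      (fun n ω => H167.toSU (cay (mdE (q + 1) (E n)) (centreMat ω (E n : ℂ)))) μ ?_
      (fun n ω => ω ∉ ZZs n (q + 1) K) (tendsto_notMem hZW good K)
      (fun n => kap q (E n)) κ₀ (tendsto_kap good)
      (fun p => scal p.1 (H167.closeS C (rot p.2))) {p | rot p.2 ∈ H167.goodS (κ := Fin K) C}
      ((H167.isOpen_goodS C).preimage (hrotc.comp continuous_snd)) ?_ ?_ ?_ G.toContinuousMap
      (G.continuous.measurable.comp hmeas)
    · intro H
      have h1 := hμ (BoundedContinuousFunction.mkOfCompact H)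
      simpa using h1
    · have h1 : ContinuousOn (fun p : Circle × F.SymU (Fin K × Fin (q + 1)) =>
          ((p.1, H167.closeS C (rot p.2)) : Circle × F.SymU (Fin K)))
          {p | rot p.2 ∈ H167.goodS (κ := Fin K) C} :=
        continuous_fst.continuousOn.prodMk ((H167.continuousOn_closeS' C).comp
          (hrotc.comp continuous_snd).continuousOn fun p hp => hp)
      exact continuous_scal.comp_continuousOn h1
    · rw [Measure.map_apply hrotc.measurable hgoodm] at hnull
      exact hnull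
    · filter_upwards [eventually_bulk good, good.nonsing] with n hn hns ω hω hb _
      have hz : ω ∈ ZZs n (q + 1) K := not_not.mp hb
      have hG : ω.1 ∈ regularGraphs n (q + 1) := (H490.mem_WW.mp hω).1
      exact cay_centreMat hq2 hn hQo hQ hz (hns ω.1 hG ∅) (hns ω.1 hG _)

/-! ### Forgetting a star -/

/-- the last index and the others -/
def lastE (K : ℕ) : Fin K ⊕ Unit ≃ Fin (K + 1) where
  toFun := Sum.elim Fin.castSucc (fun _ => Fin.last K)
  invFun := Fin.lastCases (Sum.inr ()) Sum.inl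
  left_inv := by
    rintro (i | i)
    · simp
    · simp
  right_inv := by
    intro i
    refine Fin.lastCases ?_ (fun j => ?_) i
    · simp
    · simp

theorem exists_centre_law_pred {d : ℕ} (hd : 3 ≤ d) (good : GoodSeq d 𝒰 E E₀) (hK : 1 ≤ K)
    {ν : Measure (F.SymU (Fin (K + 1)))} [IsProbabilityMeasure ν] (hν : UInv ν)
    (hlim : Lim.IsLimitLaw (𝒰 : Filter ℕ) (fun n => WW n d (K + 1))
        (fun n ω => H167.toSU (cay (mdE d (E n)) (centreMat ω (E n : ℂ)))) ν) :
    ∃ ν' : Measure (F.SymU (Fin K)), IsProbabilityMeasure ν' ∧ UInv ν' ∧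
      Lim.IsLimitLaw (𝒰 : Filter ℕ) (fun n => WW n d K)
        (fun n ω => H167.toSU (cay (mdE d (E n)) (centreMat ω (E n : ℂ)))) ν' := by
  classical
  have : Nonempty (Fin K) := ⟨⟨0, by omega⟩⟩
  set rot : F.SymU (Fin (K + 1)) → F.SymU (Fin K ⊕ Unit) := reind (lastE K) with hrot
  have hrotc : Continuous rot := continuous_reind _
  have hinv1 : UInv (ν.map rot) := hν.reind _
  have : IsProbabilityMeasure (ν.map rot) :=
    Measure.isProbabilityMeasure_map hrotc.measurable.aemeasurable
  set C := oneS Unit with hC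
  have hnull : (ν.map rot) (H167.goodS (κ := Fin K) C)ᶜ = 0 :=
    H167.measure_goodS_compl hinv1.dInv C
  have hgoodm : MeasurableSet ((H167.goodS (κ := Fin K) C)ᶜ) :=
    (H167.isOpen_goodS C).measurableSet.compl
  have hmeas : Measurable (fun x => H167.closeS (κ := Fin K) C (rot x)) :=
    (H167.measurable_closeS C).comp hrotc.measurable
  refine ⟨ν.map (fun x => H167.closeS C (rot x)),
    Measure.isProbabilityMeasure_map hmeas.aemeasurable, ?_, ?_⟩
  · have h1 : ν.map (fun x => H167.closeS (κ := Fin K) C (rot x)) =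
        (ν.map rot).map (H167.closeS C) := by
      rw [Measure.map_map (H167.measurable_closeS C) hrotc.measurable]
      rfl
    rw [h1]
    exact hinv1.closeS C
  · intro G
    rw [integral_map hmeas.aemeasurable G.continuous.measurable.aestronglyMeasurable]
    have key := H167.transfer (A := F.SymU (Fin (K + 1))) (B := F.SymU (Fin K)) (Θ := Unit)
      (l := (𝒰 : Filter ℕ))
      (fun n => WW n d (K + 1))
      (fun n ω => H167.toSU (cay (mdE d (E n)) (centreMat ω (E n : ℂ))))
      (fun n ω => H167.toSU (cay (mdE d (E n)) (centreMat (H917.front' ω) (E n : ℂ)))) ν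
      (fun H => by
        have h1 := hlim (BoundedContinuousFunction.mkOfCompact H)
        simpa using h1)
      (fun n ω => False) (by simp [prob, avg])
      (fun n => ()) () tendsto_const_nhds
      (fun p => H167.closeS C (rot p.2)) {p | rot p.2 ∈ H167.goodS (κ := Fin K) C}
      ((H167.isOpen_goodS C).preimage (hrotc.comp continuous_snd))
      ((H167.continuousOn_closeS' C).comp
          (hrotc.comp continuous_snd).continuousOn fun p hp => hp)
      (by
        rw [Measure.map_apply hrotc.measurable hgoodm] at hnull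
        exact hnull) ?_ G.toContinuousMap
      (G.continuous.measurable.comp hmeas)
    · refine key.congr' ?_
      filter_upwards [good.even] with n hn
      have hn0 : n ≠ 0 := by omega
      exact H917.avg_front (K := K) hn0 (fun ω => G (H167.toSU (cay (mdE d (E n))
        (centreMat ω (E n : ℂ)))))
    · filter_upwards [eventually_bulk good] with n hn ω _ _ _
      obtain ⟨q, rfl⟩ : ∃ q, d = q + 1 := ⟨d - 1, by omega⟩
      have hq2 : 2 ≤ q + 1 := by omega
      have hmi : (mdE (q + 1) (E n)).im ≠ 0 := by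
        rw [mdE_eq]
        exact A.im_md_ne (A.mE_im_pos hq2 hn).ne' (by positivity)
      set M := (centreMat ω (E n : ℂ)).submatrix (lastE K) (lastE K) with hM
      have hcR := A.centreMat_realSymm ω (E n)
      have hMH : Mᴴ = M := by
        rw [hM, conjTranspose_submatrix, hcR.1]
      have hcay : cay (mdE (q + 1) (E n)) M =
          (cay (mdE (q + 1) (E n)) (centreMat ω (E n : ℂ))).submatrix (lastE K) (lastE K) :=
        A.cay_submatrix _ _ _
      have hX : (H167.toSU (cay (mdE (q + 1) (E n)) (centreMat ω (E n : ℂ)))).1 =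
          cay (mdE (q + 1) (E n)) (centreMat ω (E n : ℂ)) :=
        H167.coe_toSU (H167.cay_mem_symU hmi hcR)
      have hYv : (rot (H167.toSU (cay (mdE (q + 1) (E n)) (centreMat ω (E n : ℂ))))).1 =
          cay (mdE (q + 1) (E n)) M := by
        rw [hcay]
        change ((H167.toSU (cay (mdE (q + 1) (E n)) (centreMat ω (E n : ℂ)))).1).submatrix
          (lastE K) (lastE K) = _
        rw [hX]
      have hU : IsUnit (C.1 - (rot (H167.toSU (cay (mdE (q + 1) (E n))
          (centreMat ω (E n : ℂ))))).1.toBlocks₂₂).det := by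
        rw [hYv]
        exact A.isUnit_one_sub_block hMH hmi
      apply Subtype.ext
      rw [H167.coe_closeS hU, hYv, H167.coe_toSU (H167.cay_mem_symU hmi
        (A.centreMat_realSymm (H917.front' ω) (E n)))]
      change _ = A.closeM (cay (mdE (q + 1) (E n)) M) 1
      rw [← A.cay_compress hMH hmi]
      rfl

/-- **Block F4.** -/
theorem specS_of_specX {d : ℕ} (hd : 3 ≤ d) (hZW : SpecZW d) (hX : SpecX d) (hne : SpecNE d) :
    SpecS d := by
  intro 𝒰 E E₀ good K c hc G₀
  obtain ⟨q, rfl⟩ : ∃ q, d = q + 1 := ⟨d - 1, by omega⟩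
  rcases Nat.eq_zero_or_pos K with hK | hK
  · -- no star at all
    subst hK
    have hsub : Subsingleton (SymU (Fin 0)) := ⟨fun S T => Subtype.ext (by ext i; exact i.elim0)⟩
    set S₀ : SymU (Fin 0) := toSymU 1 with hS₀
    have hF : G₀ = (G₀ S₀) • (1 : C(SymU (Fin 0), ℝ)) := by
      ext S
      rw [Subsingleton.elim S S₀]
      simp
    have hcF : c G₀ = G₀ S₀ := by
      conv_lhs => rw [hF, hc.2.2.1, hc.1, mul_one]
    rw [hcF]
    refine tendsto_const_nhds.congr' ?_
    filter_upwards [hne 𝒰 E E₀ good 0] with n hn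
    have h1 : ∀ ω : SimpleGraph (Fin n) × StarPos n (q + 1) 0,
        G₀ (toSymU (cay (mdE (q + 1) (E n)) (centreMat ω (E n : ℂ)))) = G₀ S₀ :=
      fun ω => by rw [Subsingleton.elim (toSymU _) S₀]
    simp only [h1]
    exact (Lim.avg_const hn _).symm
  · have key : ∃ ν : Measure (F.SymU (Fin K)), IsProbabilityMeasure ν ∧ UInv ν ∧
        Lim.IsLimitLaw (𝒰 : Filter ℕ) (fun n => WW n (q + 1) K)
          (fun n ω => H167.toSU (cay (mdE (q + 1) (E n)) (centreMat ω (E n : ℂ)))) ν := by
      obtain ⟨ν, hν1, hν2, hν3⟩ := exists_centre_law (K := K + 1) hZW hX hne good (by omega)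
      exact exists_centre_law_pred hd good hK hν2 hν3
    obtain ⟨ν, hν1, hν2, hν3⟩ := key
    have h1 := (H167.isLimitLaw_iff.mp hν3) G₀
    have h2 := G.integral_eq_of_isCOE ν hν2 hc G₀
    rw [← h2]
    exact h1

end

end Vale.Agent.P156.H156
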