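import Vale.Agent.P156.H156.F4
import Vale.Agent.P156.H144.Reg
import Vale.Agent.P156.B.Bridge

/-! P156, block F4: final form. -/

namespace Vale.Agent.P156.H156

theorem specNE (d : ℕ) : SpecNE d := by
  intro 𝒰 E E₀ good K
  filter_upwards [good.even] with n hn
  exact H144.WW_nonempty hn.1 hn.2 K

/-- **Block F4**: `SpecX` implies `SpecS`. -/
theorem specS_of_specX' {d : ℕ} (hd : 3 ≤ d) (hX : SpecX d) : SpecS d :=
  specS_of_specX hd (B.specZW d) hX (specNE d)

end Vale.Agent.P156.H156
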