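import Vale.Agent.P156.H167.CloseN
import Vale.Agent.P156.H167.Bridge
import Vale.Agent.P156.H574.Attach
import Vale.Agent.P156.H574.Equi

/-! P156, block F4: reindexing, scalar phases and full unitary invariance. -/

open Matrix MeasureTheory Filter Topology
open scoped ComplexConjugate Kronecker

namespace Vale.Agent.P156.H156

open Vale.Agent.P156

noncomputable section

section reindex

variable {ι κ : Type} [Fintype ι] [DecidableEq ι] [Fintype κ] [DecidableEq κ]

/-- invariance under the full unitary group -/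
def UInv (μ : Measure (F.SymU ι)) : Prop := ∀ U : unitaryGroup ι ℂ, F.InvBy μ U

theorem submatrix_mem_unitary (e : κ ≃ ι) {U : Matrix ι ι ℂ} (hU : U ∈ unitaryGroup ι ℂ) :
    U.submatrix e e ∈ unitaryGroup κ ℂ := by
  rw [mem_unitaryGroup_iff, star_eq_conjTranspose] at hU ⊢
  rw [conjTranspose_submatrix, submatrix_mul_equiv, hU, submatrix_one_equiv]

/-- reindexing of a unitary matrix -/
def reindU (e : κ ≃ ι) (U : unitaryGroup ι ℂ) : unitaryGroup κ ℂ :=
  ⟨U.1.submatrix e e, submatrix_mem_unitary e U.2⟩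

/-- reindexing of a symmetric unitary matrix -/
def reind (e : κ ≃ ι) (S : F.SymU ι) : F.SymU κ :=
  ⟨S.1.submatrix e e, submatrix_mem_unitary e S.2.1, by rw [transpose_submatrix, S.2.2]⟩

theorem continuous_reind (e : κ ≃ ι) : Continuous (reind e) :=
  Continuous.subtype_mk (continuous_subtype_val.matrix_submatrix e e) _

theorem reind_smul (e : κ ≃ ι) (U : unitaryGroup ι ℂ) (S : F.SymU ι) :
    reind e (U • S) = reindU e U • reind e S := by
  apply Subtype.ext
  change (U.1 * S.1 * U.1ᵀ).submatrix e e =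
    U.1.submatrix e e * S.1.submatrix e e * (U.1.submatrix e e)ᵀ
  rw [transpose_submatrix, submatrix_mul_equiv, submatrix_mul_equiv]

theorem reindU_symm (e : κ ≃ ι) (V : unitaryGroup κ ℂ) : reindU e (reindU e.symm V) = V := by
  apply Subtype.ext
  change (V.1.submatrix e.symm e.symm).submatrix e e = V.1
  rw [submatrix_submatrix]
  simp

/-- full invariance passes to images which intertwine the actions -/
theorem UInv.reind {μ : Measure (F.SymU ι)} (h : UInv μ) (e : κ ≃ ι) :
    UInv (μ.map (H156.reind e)) := by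
  intro V
  unfold F.InvBy
  rw [Measure.map_map (F.measurable_smul V) (continuous_reind e).measurable]
  have h1 : (fun S : F.SymU κ => V • S) ∘ H156.reind e =
      H156.reind e ∘ (fun S : F.SymU ι => reindU e.symm V • S) := by
    funext S
    simp only [Function.comp_apply]
    rw [reind_smul, reindU_symm]
  rw [h1, ← Measure.map_map (continuous_reind e).measurable (F.measurable_smul _),
    h (reindU e.symm V)]

theorem UInv.smul {μ : Measure (F.SymU ι)} (h : UInv μ) (U : unitaryGroup ι ℂ) :
    UInv (μ.map (fun S => U • S)) := by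
  have h1 : μ.map (fun S => U • S) = μ := h U
  rw [h1]
  exact h

theorem UInv.dInv {μ : Measure (F.SymU ι)} (h : UInv μ) : F.DInv μ := fun U _ _ => h U

/-! ### scalar phases -/

theorem scal_mem (w : Circle) {S : Matrix ι ι ℂ} (hS : S ∈ F.symU ι) :
    (w : ℂ) • S ∈ F.symU ι := by
  refine ⟨?_, by rw [transpose_smul, hS.2]⟩
  have h := mem_unitaryGroup_iff.mp hS.1
  rw [mem_unitaryGroup_iff, star_smul, Matrix.smul_mul, Matrix.mul_smul, smul_smul, h]
  have h1 : (w : ℂ) * star (w : ℂ) = 1 := by
    rw [Complex.star_def, Complex.mul_conj, Circle.normSq_coe, Complex.ofReal_one]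
  rw [h1, one_smul]

/-- multiplication by a phase -/
def scal (w : Circle) (S : F.SymU ι) : F.SymU ι := ⟨(w : ℂ) • S.1, scal_mem w S.2⟩

theorem continuous_scal : Continuous (fun p : Circle × F.SymU ι => scal p.1 p.2) := by
  refine Continuous.subtype_mk ?_ _
  have h1 : Continuous (fun p : Circle × F.SymU ι => (p.1 : ℂ)) :=
    continuous_subtype_val.comp continuous_fst
  exact h1.smul (continuous_subtype_val.comp continuous_snd)

theorem scal_smul (w : Circle) (U : unitaryGroup ι ℂ) (S : F.SymU ι) :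
    scal w (U • S) = U • scal w S := by
  apply Subtype.ext
  change (w : ℂ) • (U.1 * S.1 * U.1ᵀ) = U.1 * ((w : ℂ) • S.1) * U.1ᵀ
  rw [Matrix.mul_smul, Matrix.smul_mul]

theorem continuous_scal' (w : Circle) : Continuous (scal w : F.SymU ι → F.SymU ι) :=
  continuous_scal.comp (by fun_prop : Continuous fun S : F.SymU ι => (w, S))

theorem UInv.scal {μ : Measure (F.SymU ι)} (h : UInv μ) (w : Circle) :
    UInv (μ.map (H156.scal w)) := by
  intro V
  unfold F.InvBy
  rw [Measure.map_map (F.measurable_smul V) (continuous_scal' w).measurable]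
  have h1 : (fun S : F.SymU ι => V • S) ∘ H156.scal w =
      H156.scal w ∘ (fun S : F.SymU ι => V • S) := by
    funext S
    simp only [Function.comp_apply]
    rw [scal_smul]
  rw [h1, ← Measure.map_map (continuous_scal' w).measurable (F.measurable_smul _), h V]

end reindex

section close

variable {κ τ : Type} [Fintype κ] [DecidableEq κ] [Fintype τ] [DecidableEq τ]

/-- the identity matrix as a closing -/
def oneS (τ : Type) [Fintype τ] [DecidableEq τ] : F.SymU τ := ⟨1, one_mem _, transpose_one⟩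

theorem UInv.closeS [Nonempty κ] {μ : Measure (F.SymU (κ ⊕ τ))} [IsFiniteMeasure μ] (h : UInv μ)
    (C : F.SymU τ) : UInv (μ.map (H167.closeS (κ := κ) C)) :=
  fun U => H167.InvBy.closeS (H167.measure_goodS_compl h.dInv C) (h (H167.extU U))

end close

/-! ### an orthogonal matrix with constant first row -/

section orth

theorem householder {ι : Type} [Fintype ι] [DecidableEq ι] (v : ι → ℝ) (c : ℝ)
    (h : c * (v ⬝ᵥ v) = 2) :
    (1 - c • vecMulVec v v : Matrix ι ι ℝ) ∈ orthogonalGroup ι ℝ := by
  rw [mem_orthogonalGroup_iff]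
  have h1 : (1 - c • vecMulVec v v : Matrix ι ι ℝ)ᵀ = 1 - c • vecMulVec v v := by
    rw [transpose_sub, transpose_one, transpose_smul]
    congr 2
    ext i j
    simp [vecMulVec_apply, mul_comm]
  rw [h1, Matrix.mul_sub, Matrix.mul_one, Matrix.sub_mul, Matrix.one_mul, Matrix.smul_mul,
    Matrix.mul_smul, vecMulVec_mul_vecMulVec, vecMulVec_smul, smul_smul, smul_smul]
  have h2 : c * c * (v ⬝ᵥ v) = 2 * c := by rw [mul_assoc, h]; ring
  rw [h2, two_mul, add_smul]
  abel

theorem exists_orth (q : ℕ) (hq : 0 < q) : ∃ Q : Matrix (Fin (q + 1)) (Fin (q + 1)) ℝ,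
    Q ∈ orthogonalGroup (Fin (q + 1)) ℝ ∧ ∀ k, Q 0 k = (Real.sqrt ((q : ℝ) + 1))⁻¹ := by
  set s : ℝ := (Real.sqrt ((q : ℝ) + 1))⁻¹ with hs
  have hq' : (1 : ℝ) ≤ q := by exact_mod_cast hq
  have hs2 : s * s = ((q : ℝ) + 1)⁻¹ := by
    rw [hs, ← mul_inv, Real.mul_self_sqrt (by linarith)]
  have hs0 : 0 ≤ s := inv_nonneg.mpr (Real.sqrt_nonneg _)
  have hs1 : s < 1 := by
    rw [hs]
    apply inv_lt_one_of_one_lt₀
    rw [Real.lt_sqrt (by norm_num)]
    linarith
  set v : Fin (q + 1) → ℝ := fun k => (if k = 0 then 1 else 0) - s with hv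
  have hvv : v ⬝ᵥ v = 2 * (1 - s) := by
    have h1 : ∀ k, v k * v k = (if k = 0 then 1 - 2 * s else 0) + s * s := by
      intro k
      simp only [hv]
      split_ifs <;> ring
    rw [dotProduct, Finset.sum_congr rfl fun k _ => h1 k, Finset.sum_add_distrib,
      Finset.sum_ite_eq' Finset.univ (0 : Fin (q + 1)) (fun _ => 1 - 2 * s),
      Finset.sum_const, Finset.card_univ, Fintype.card_fin, nsmul_eq_mul, hs2]
    have h2 : ((q : ℝ) + 1) ≠ 0 := by linarith
    rw [if_pos (Finset.mem_univ _)]
    push_cast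
    rw [mul_inv_cancel₀ h2]
    ring
  have hne : 1 - s ≠ 0 := by linarith
  refine ⟨1 - (1 - s)⁻¹ • vecMulVec v v, householder v _ ?_, fun k => ?_⟩
  · rw [hvv]
    field_simp
  · rw [Matrix.sub_apply, Matrix.smul_apply, vecMulVec_apply, smul_eq_mul]
    have h0 : v 0 = 1 - s := by simp [hv]
    rw [h0, ← mul_assoc, inv_mul_cancel₀ hne, one_mul, one_apply]
    simp only [hv]
    by_cases hk : k = 0
    · subst hk; simp
    · rw [if_neg hk, if_neg (fun h => hk h.symm)]
      ring

end orth

end

end Vale.Agent.P156.H156
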